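import Claimed.Agent.R282.Col.FoldW

/-! # Row 282, Col, package L-COL-S: small facts on weights, fundamental weights, Weyl states -/

set_option autoImplicit false

open Claims Claims.C0456

namespace Claimed.Agent.R282

variable {n : ℕ}

/-- small facts on the frozen predicates -/
theorem col_dom_half (L : Fin n → ℤ) (h : IsDominantWeight2 L) : Dom (half L) := by
  intro i j hij
  have h1 := h.2 i j hij
  have h2 : |(L j : ℝ)| ≤ (L i : ℝ) := by exact_mod_cast h1
  unfold half
  rw [abs_div, abs_of_pos (by norm_num : (0 : ℝ) < 2)]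
  linarith

theorem col_wt_half (L : Fin n → ℤ) (h : IsDominantWeight2 L) : IsWtD (half L) := by
  by_cases h0 : ∀ i, Even (L i)
  · left
    intro i
    obtain ⟨z, hz⟩ := h0 i
    refine ⟨z, ?_⟩
    unfold half
    rw [hz]
    push_cast
    ring
  · right
    push Not at h0
    obtain ⟨i0, hi0⟩ := h0
    intro i
    have h1 : ¬ Even (L i) := by
      intro he
      apply hi0
      have h2 := h.1 i i0
      have h3 : L i0 = L i - (L i - L i0) := by ring
      rw [h3]
      exact he.sub h2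
    obtain ⟨z, hz⟩ := Int.not_even_iff_odd.1 h1
    refine ⟨z, ?_⟩
    unfold half
    rw [hz]
    push_cast
    ring

theorem col_dom_fund (hn : 2 ≤ n) (k : Fin n) : Dom (fundV n k) := by
  intro i j hij
  have hij' : (i : ℕ) < (j : ℕ) := hij
  have hj := j.2
  unfold fundV
  by_cases h1 : (k : ℕ) + 2 < n
  · simp only [if_pos h1]
    by_cases h2 : (j : ℕ) ≤ k
    · have h3 : (i : ℕ) ≤ k := by omega
      simp [h2, h3]
    · simp only [if_neg h2, abs_zero]
      split_ifs <;> norm_num
  · simp only [if_neg h1]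
    by_cases h2 : (k : ℕ) + 2 = n
    · simp only [if_pos h2]
      have h3 : ¬ ((i : ℕ) + 1 = n) := by omega
      simp only [if_neg h3]
      split_ifs
      · rw [abs_of_neg (by norm_num)]; norm_num
      · rw [abs_of_pos (by norm_num)]
    · simp only [if_neg h2]
      rw [abs_of_pos (by norm_num)]

/-! small combinatorial facts -/

theorem col_isWf_down (f g : Vec n → Vec n) (hf : IsWf f) (h : Down Ty.D f g) : IsWf g := by
  obtain ⟨β, -, -, -, rfl⟩ := h
  exact colF_wf_refl β f hf

theorem col_isWf_downExt (ω : Vec n) (f g : Vec n → Vec n) (hf : IsWf f) (h : DownExt ω f g) :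
    IsWf g := by
  obtain ⟨β, -, -, -, rfl⟩ := h
  exact colF_wf_refl β f hf

theorem col_wt_fund (hn : 2 ≤ n) (k : Fin n) : IsWtD (fundV n k) := by
  by_cases h1 : (k : ℕ) + 2 < n
  · left
    intro i
    unfold fundV
    simp only [if_pos h1]
    by_cases h2 : (i : ℕ) ≤ k
    · exact ⟨1, by simp [h2]⟩
    · exact ⟨0, by simp [h2]⟩
  · right
    intro i
    unfold fundV
    simp only [if_neg h1]
    by_cases h2 : (k : ℕ) + 2 = n
    · simp only [if_pos h2]
      by_cases h3 : (i : ℕ) + 1 = n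
      · exact ⟨-1, by simp only [if_pos h3]; norm_num⟩
      · exact ⟨0, by simp only [if_neg h3]; norm_num⟩
    · exact ⟨0, by simp only [if_neg h2]; norm_num⟩

/-- (L-COL-S, auxiliary) Weyl elements preserve the integral vectors -/
theorem colS_int_act (θ : Vec n) (hθ : ∀ i, ∃ z : ℤ, θ i = z) (f : Vec n → Vec n) (hf : IsWf f) :
    ∀ i, ∃ z : ℤ, f θ i = z := by
  obtain ⟨w, rfl⟩ := hf
  intro i
  obtain ⟨z, hz⟩ := hθ (w.σ.symm i)
  unfold WD.act sgnB
  rw [hz]
  by_cases hs : w.s i = true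
  · exact ⟨-z, by simp [hs]⟩
  · exact ⟨z, by simp [hs]⟩

/-- (L-COL-S, auxiliary) Weyl elements preserve the weight lattice -/
theorem colS_wt_act (θ : Vec n) (hθ : IsWtD θ) (f : Vec n → Vec n) (hf : IsWf f) : IsWtD (f θ) := by
  rcases hθ with hθ | hθ
  · exact Or.inl (colS_int_act θ hθ f hf)
  · right
    obtain ⟨w, rfl⟩ := hf
    intro i
    obtain ⟨z, hz⟩ := hθ (w.σ.symm i)
    unfold WD.act sgnB
    rw [hz]
    by_cases hs : w.s i = true
    · exact ⟨-z - 1, by simp only [hs, if_true]; push_cast; ring⟩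
    · exact ⟨z, by simp [hs]⟩

/-- (L-COL-S, auxiliary) the weight lattice is closed under addition -/
theorem colS_wt_add (x y : Vec n) (hx : IsWtD x) (hy : IsWtD y) : IsWtD (x + y) := by
  rcases hx with hx | hx <;> rcases hy with hy | hy
  · left
    intro i
    obtain ⟨a, ha⟩ := hx i
    obtain ⟨b, hb⟩ := hy i
    exact ⟨a + b, by rw [Pi.add_apply, ha, hb]; push_cast; ring⟩
  · right
    intro i
    obtain ⟨a, ha⟩ := hx i
    obtain ⟨b, hb⟩ := hy i
    exact ⟨a + b, by rw [Pi.add_apply, ha, hb]; push_cast; ring⟩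
  · right
    intro i
    obtain ⟨a, ha⟩ := hx i
    obtain ⟨b, hb⟩ := hy i
    exact ⟨a + b, by rw [Pi.add_apply, ha, hb]; push_cast; ring⟩
  · left
    intro i
    obtain ⟨a, ha⟩ := hx i
    obtain ⟨b, hb⟩ := hy i
    exact ⟨a + b + 1, by rw [Pi.add_apply, ha, hb]; push_cast; ring⟩

theorem col_wt_add_act (h θ : Vec n) (hw : IsWtD h) (hθ : IsWtD θ) (f : Vec n → Vec n)
    (hf : IsWf f) : IsWtD (h + f θ) := by
  exact colS_wt_add _ _ hw (colS_wt_act θ hθ f hf)

/-- (L-COL-S, auxiliary) roots are integral vectors -/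
theorem colS_int_root (β : RootD n) : ∀ i, ∃ z : ℤ, β.vec i = z := by
  intro i
  unfold RootD.vec sgnB
  refine ⟨(if i = β.i then (if β.si = true then -1 else 1) else 0) +
    (if i = β.j then (if β.sj = true then -1 else 1) else 0), ?_⟩
  push_cast
  rfl

/-- (L-COL-S, auxiliary) along a chain of `DownExt` steps the direction changes by twice an integral vector -/
theorem colS_chain (ω : Vec n) (f g : Vec n → Vec n)
    (hfg : Relation.ReflTransGen (DownExt ω) f g) :
    ∃ v : Vec n, (∀ i, ∃ z : ℤ, v i = z) ∧ g ω = f ω + (2 : ℝ) • v := by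
  induction hfg with
  | refl => exact ⟨0, fun i => ⟨0, by simp⟩, by simp⟩
  | tail _ hbc ih =>
    obtain ⟨v, hv, hb⟩ := ih
    obtain ⟨β, -, -, hd, rfl⟩ := hbc
    rcases hd with hd | hd
    · refine ⟨v, hv, ?_⟩
      show refl β _ = _
      unfold refl
      rw [hd, zero_smul, sub_zero, hb]
    · refine ⟨v + β.vec, fun i => ?_, ?_⟩
      · obtain ⟨a, ha⟩ := hv i
        obtain ⟨b, hb'⟩ := colS_int_root β i
        exact ⟨a + b, by rw [Pi.add_apply, ha, hb']; push_cast; ring⟩
      · show refl β _ = _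
        unfold refl
        rw [hd, hb, smul_add, neg_smul, sub_neg_eq_add, add_assoc]

/-- `(f ω + g ω) / 2` is an integral vector -/
theorem col_wt_add_mid (hn : 2 ≤ n) (k : Fin n) (hk : IsExt n k) (h : Vec n) (hw : IsWtD h)
    (f g : Vec n → Vec n) (hf : IsWf f)
    (hfg : Relation.ReflTransGen (DownExt (fundV n k)) f g) :
    IsWtD (h + (1 / 2 : ℝ) • (f (fundV n k) + g (fundV n k))) := by
  obtain ⟨v, hv, hg⟩ := colS_chain (fundV n k) f g hfg
  have hω : ∀ i, ∃ z : ℤ, fundV n k i = z := by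
    intro i
    unfold fundV
    simp only [if_pos hk.2]
    by_cases h2 : (i : ℕ) ≤ k
    · exact ⟨1, by simp [h2]⟩
    · exact ⟨0, by simp [h2]⟩
  have hfω := colS_int_act _ hω f hf
  refine colS_wt_add _ _ hw (Or.inl fun i => ?_)
  obtain ⟨a, ha⟩ := hfω i
  obtain ⟨b, hb⟩ := hv i
  refine ⟨a + b, ?_⟩
  rw [hg]
  simp only [Pi.smul_apply, Pi.add_apply, smul_eq_mul, ha, hb]
  push_cast
  ring

end Claimed.Agent.R282
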