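import Claimed.Agent.R282.Col.FoldLeaves
import Claimed.Agent.R282.Col.Small

/-!
# Row 282, Sec. 5, layers (F1b), (F2): leaves

(F1b) the prefix induction (5.2); (F2) from an integral decreasing path for a list of fundamental
columns to `ColChain`.

Key invariant inside a column `ω` started in the state `(f₀, h)`:  the current state `(f, c)` satisfies
`c = h + (1/2) (f₀ ω - f ω)`.  A switch at local time `t ∈ (0,1)` with pairing `p = β · f ω` preserves it
iff `p = 0` or `t = 1/2`; integrality of `t p` and `p ∈ {0,-1,-2}` give exactly this.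
-/

set_option autoImplicit false

namespace Claimed.Agent.R282

variable {n : ℕ}

/-! ## (F1b) -/

/-- (C0, auxiliary) roots pair integrally with weights -/
theorem colA_root_wt (γ : RootD n) (x : Vec n) (hx : IsWtD x) : ∃ z : ℤ, dot γ.vec x = z := by
  rw [sc_vec_dot]
  rcases hx with hx | hx
  · obtain ⟨a, ha⟩ := hx γ.i
    obtain ⟨b, hb⟩ := hx γ.j
    rw [ha, hb]
    rcases sc_sgnB_cases γ.si with h | h <;> rcases sc_sgnB_cases γ.sj with h' | h' <;> rw [h, h']
    · exact ⟨a + b, by push_cast; ring⟩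
    · exact ⟨a - b, by push_cast; ring⟩
    · exact ⟨-a + b, by push_cast; ring⟩
    · exact ⟨-a - b, by push_cast; ring⟩
  · obtain ⟨a, ha⟩ := hx γ.i
    obtain ⟨b, hb⟩ := hx γ.j
    rw [ha, hb]
    rcases sc_sgnB_cases γ.si with h | h <;> rcases sc_sgnB_cases γ.sj with h' | h' <;> rw [h, h']
    · exact ⟨a + b + 1, by push_cast; ring⟩
    · exact ⟨a - b, by push_cast; ring⟩
    · exact ⟨-a + b, by push_cast; ring⟩
    · exact ⟨-a - b - 1, by push_cast; ring⟩

/-- (C0, auxiliary) the prefix induction (5.2) for general states -/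
theorem colA_int_of_wall (θ : Shape n) : ∀ (l : List (ℝ × RootD n)) (S : SwState n),
    (∀ β : RootD n, ∃ z : ℤ, dot β.vec S.c = z) → SwIntOrWall θ S l → SwIntegral θ S l := by
  intro l
  induction l with
  | nil => intro S _ _; trivial
  | cons p l ih =>
    intro S hS h
    obtain ⟨h1, h2⟩ := h
    have hc : ∃ z : ℤ, S.coeff θ p.1 p.2 = z := by
      rcases h1 with h1 | h1
      · exact h1
      · obtain ⟨z, hz⟩ := hS p.2
        refine ⟨z, ?_⟩
        unfold SwState.gap SwState.pos at h1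
        unfold SwState.coeff
        rw [sc_dot_add_left, sc_dot_comm S.c, hz, sc_dot_comm] at h1
        linarith
    refine ⟨hc, ih _ ?_ h2⟩
    intro β
    obtain ⟨z, hz⟩ := hc
    obtain ⟨a, ha⟩ := hS β
    obtain ⟨b, hb, -, -⟩ := sc_vec_dot_vec_int β p.2
    refine ⟨a - z * b, ?_⟩
    show dot β.vec (S.c - S.coeff θ p.1 p.2 • p.2.vec) = _
    rw [sc_dot_sub_right, sc_dot_smul_right, ha, hz, hb]
    push_cast
    ring

/-- LEAF F1b.  Generalise to states `(f, c)` with `IsWf f` and `∀ β, ∃ z : ℤ, dot β.vec c = z`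
(true for `c = lam` by `IsWtD lam`; preserved by a step with integral coefficient since
`dot β.vec β'.vec ∈ ℤ`).  On a wall: `0 = gap = dot (c + f η) β`, so `coeff = - dot β (f η) = dot β c`. -/
theorem col_int_of_wall (lam : Vec n) (θ : Shape n) (hl : IsWtD lam) (w0 : WD n)
    (l : List (ℝ × RootD n)) (h : SwIntOrWall θ ⟨w0.act, lam⟩ l) :
    SwIntegral θ ⟨w0.act, lam⟩ l := by
  exact colA_int_of_wall θ l _ (fun β => colA_root_wt β lam hl) h

/-! ## (F2) C0: arithmetic of the pairings -/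

/-- C0.1 roots pair integrally with Weyl translates of fundamental weights -/
theorem colC_pair_int (hn : 2 ≤ n) (k : Fin n) (f : Vec n → Vec n) (hf : IsWf f) (β : RootD n) :
    ∃ z : ℤ, dot β.vec (f (fundV n k)) = z := by
  obtain ⟨γ, hγ⟩ := sc_frame_root f hf β
  rw [hγ]
  exact colA_root_wt γ _ (col_wt_fund hn k)

/-- (C0, auxiliary) the pairing of a root with a fundamental weight -/
theorem colA_pair_fund (k : Fin n) (γ : RootD n) :
    ∃ P : ℤ, dot γ.vec (fundV n k) = P ∧ -2 ≤ P ∧ P ≤ 2 ∧ (P = -2 → IsExt n k) := by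
  rw [sc_vec_dot]
  obtain ⟨sI, hsI, hsI'⟩ : ∃ s : ℤ, sgnB γ.si = s ∧ (s = 1 ∨ s = -1) := by
    rcases sc_sgnB_cases γ.si with h | h
    · exact ⟨1, by rw [h]; norm_num, Or.inl rfl⟩
    · exact ⟨-1, by rw [h]; norm_num, Or.inr rfl⟩
  obtain ⟨sJ, hsJ, hsJ'⟩ : ∃ s : ℤ, sgnB γ.sj = s ∧ (s = 1 ∨ s = -1) := by
    rcases sc_sgnB_cases γ.sj with h | h
    · exact ⟨1, by rw [h]; norm_num, Or.inl rfl⟩
    · exact ⟨-1, by rw [h]; norm_num, Or.inr rfl⟩
  rw [hsI, hsJ]
  have hne : (γ.i : ℕ) ≠ γ.j := fun h => γ.ne (Fin.ext h)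
  by_cases h1 : (k : ℕ) + 2 < n
  · have hω : ∀ i : Fin n, ∃ A : ℤ, fundV n k i = A ∧ ((A = 1 ∧ (i : ℕ) ≤ k) ∨ A = 0) := by
      intro i
      unfold fundV
      simp only [if_pos h1]
      by_cases h2 : (i : ℕ) ≤ k
      · exact ⟨1, by simp [h2], Or.inl ⟨rfl, h2⟩⟩
      · exact ⟨0, by simp [h2], Or.inr rfl⟩
    obtain ⟨A, hA, hA'⟩ := hω γ.i
    obtain ⟨B, hB, hB'⟩ := hω γ.j
    rw [hA, hB]
    refine ⟨sI * A + sJ * B, by push_cast; ring, ?_, ?_, ?_⟩
    · rcases hsI' with rfl | rfl <;> rcases hsJ' with rfl | rfl <;>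
        rcases hA' with ⟨rfl, -⟩ | rfl <;> rcases hB' with ⟨rfl, -⟩ | rfl <;> norm_num
    · rcases hsI' with rfl | rfl <;> rcases hsJ' with rfl | rfl <;>
        rcases hA' with ⟨rfl, -⟩ | rfl <;> rcases hB' with ⟨rfl, -⟩ | rfl <;> norm_num
    · intro hP
      have hAB : ((A = 1 ∧ (γ.i : ℕ) ≤ k) ∧ (B = 1 ∧ (γ.j : ℕ) ≤ k)) := by
        rcases hsI' with rfl | rfl <;> rcases hsJ' with rfl | rfl <;>
          rcases hA' with ⟨rfl, ha⟩ | rfl <;> rcases hB' with ⟨rfl, hb⟩ | rfl <;>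
          first
          | exact ⟨⟨rfl, ha⟩, ⟨rfl, hb⟩⟩
          | (exfalso; norm_num at hP)
      exact ⟨by omega, h1⟩
  · have hω : ∀ i : Fin n, ∃ A : ℤ, fundV n k i = (A : ℝ) / 2 ∧ (A = 1 ∨ A = -1) := by
      intro i
      unfold fundV
      simp only [if_neg h1]
      split_ifs
      · exact ⟨-1, by norm_num, Or.inr rfl⟩
      · exact ⟨1, by norm_num, Or.inl rfl⟩
      · exact ⟨1, by norm_num, Or.inl rfl⟩
    obtain ⟨A, hA, hA'⟩ := hω γ.i
    obtain ⟨B, hB, hB'⟩ := hω γ.j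
    rw [hA, hB]
    refine ⟨(sI * A + sJ * B) / 2, ?_, ?_, ?_, ?_⟩ <;>
      rcases hsI' with rfl | rfl <;> rcases hsJ' with rfl | rfl <;>
      rcases hA' with rfl | rfl <;> rcases hB' with rfl | rfl <;> norm_num

/-- C0.2 a downward reflection at an interior local time `t` with integral `t p` has `p = 0`, or
`p = -2`, `t = 1/2` and the column is exterior.
(`f ω` has coordinates in `{0, ±1}` resp. `{±1/2}`, so `p ∈ {0, ±1, ±2}`, and `|p| ≤ 1` for minuscule
columns; `p ≤ 0` by F1.6/F1.4' because `f⁻¹ β < 0` and `ω` is dominant.) -/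
theorem colC_interior (hn : 2 ≤ n) (k : Fin n) (f : Vec n → Vec n) (hf : IsWf f) (β : RootD n)
    (hneg : dot (f (rhoV n)) β.vec < 0) (t : ℝ) (h0 : 0 < t) (h1 : t < 1)
    (hint : ∃ z : ℤ, - dot β.vec (f (t • fundV n k)) = z) :
    dot (f (fundV n k)) β.vec = 0 ∨
      (dot (f (fundV n k)) β.vec = -2 ∧ t = 1 / 2 ∧ IsExt n k) := by
  obtain ⟨γ, hγ⟩ := sc_frame_root f hf β
  rw [sc_dot_comm, hγ] at hneg
  rw [sc_dot_comm, hγ]
  obtain ⟨z, hz⟩ := hint
  rw [hγ, sc_dot_smul_right] at hz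
  obtain ⟨P, hP, hP1, hP2, hPe⟩ := colA_pair_fund k γ
  have hle : dot γ.vec (fundV n k) ≤ 0 := by
    rcases colF_root_sign γ with h | h
    · exact absurd hneg (not_lt.2 h.1.le)
    · exact h.2 _ (col_dom_fund hn k)
  rw [hP] at hle hz ⊢
  have hP0 : P ≤ 0 := by exact_mod_cast hle
  have hcases : P = 0 ∨ P = -1 ∨ P = -2 := by omega
  rcases hcases with rfl | rfl | rfl
  · left; norm_num
  · exfalso
    have e : t = z := by push_cast at hz; linarith
    rw [e] at h0 h1
    have a1 : (0 : ℤ) < z := by exact_mod_cast h0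
    have a2 : z < (1 : ℤ) := by exact_mod_cast h1
    omega
  · right
    refine ⟨by norm_num, ?_, hPe rfl⟩
    have e : 2 * t = z := by push_cast at hz; linarith
    have a1 : (0 : ℤ) < z := by
      have : (0 : ℝ) < z := by rw [← e]; linarith
      exact_mod_cast this
    have a2 : z < (2 : ℤ) := by
      have : (z : ℝ) < 2 := by rw [← e]; linarith
      exact_mod_cast this
    have a3 : z = 1 := by omega
    rw [a3] at e
    push_cast at e
    linarith

/-- C0.3 -/
theorem colC_minu_or_ext (k : Fin n) : IsMinu n k ∨ IsExt n k := by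
  unfold IsMinu IsExt
  omega

theorem colC_not_minu_ext (k : Fin n) : IsMinu n k → ¬ IsExt n k := by
  unfold IsMinu IsExt
  omega

end Claimed.Agent.R282
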