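import Claimed.Agent.R282.Col.FoldLeaves

/-! # Row 282, Col, package L-COL-C1: values of the shape, shift by one column, single steps -/

set_option autoImplicit false

namespace Claimed.Agent.R282

variable {n : ℕ}

/-! ## C1: values of the shape, shift by one column -/

theorem colC_val_head (ω : Vec n) (θ' : Shape n) (t : ℝ) (h0 : 0 ≤ t) (h1 : t ≤ 1) :
    Shape.val (ω :: θ') t = t • ω := by
  rw [sc_val_cons, sc_val_of_nonpos θ' (t - 1) (by linarith), add_zero, min_eq_left h1,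
    max_eq_right h0]

theorem colC_val_tail (ω : Vec n) (θ' : Shape n) (t : ℝ) (h1 : 1 ≤ t) :
    Shape.val (ω :: θ') t = ω + Shape.val θ' (t - 1) := by
  rw [sc_val_cons, min_eq_right h1, max_eq_right zero_le_one, one_smul]

/-- C1.3 restriction of the chamber condition to a later starting time -/
theorem colC_inDom_mono (θ : Shape n) (a a' : ℝ) (S : SwState n) (l : List (ℝ × RootD n))
    (haa : a ≤ a') (h : SwInDom Ty.D θ a S l) : SwInDom Ty.D θ a' S l := by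
  cases l with
  | nil => exact fun t ht ht' => h t (haa.trans ht) ht'
  | cons p l => exact ⟨fun t ht ht' => h.1 t (haa.trans ht) ht', h.2⟩

/-- positions after time `1` -/
theorem colC_shift_pos (ω : Vec n) (θ' : Shape n) (f : Vec n → Vec n) (hf : IsWf f) (c : Vec n)
    (t : ℝ) (h1 : 1 ≤ t) :
    (⟨f, c⟩ : SwState n).pos (ω :: θ') t = (⟨f, c + f ω⟩ : SwState n).pos θ' (t - 1) := by
  unfold SwState.pos
  show c + f (Shape.val (ω :: θ') t) = c + f ω + f (Shape.val θ' (t - 1))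
  rw [colC_val_tail ω θ' t h1, (colF_wf_lin f hf).1, add_assoc]

/-- coefficients after time `1` -/
theorem colC_shift_coeff (ω : Vec n) (θ' : Shape n) (f : Vec n → Vec n) (hf : IsWf f) (c c' : Vec n)
    (t : ℝ) (h1 : 1 ≤ t) (β : RootD n) :
    (⟨f, c⟩ : SwState n).coeff (ω :: θ') t β
      = (⟨f, c'⟩ : SwState n).coeff θ' (t - 1) β - dot β.vec (f ω) := by
  unfold SwState.coeff
  show - dot β.vec (f (Shape.val (ω :: θ') t)) = - dot β.vec (f (Shape.val θ' (t - 1))) - _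
  rw [colC_val_tail ω θ' t h1, (colF_wf_lin f hf).1, sc_dot_add_right]
  ring

/-- steps after time `1` -/
theorem colC_shift_step (ω : Vec n) (θ' : Shape n) (f : Vec n → Vec n) (hf : IsWf f) (c : Vec n)
    (t : ℝ) (h1 : 1 ≤ t) (β : RootD n) :
    (⟨f, c + f ω⟩ : SwState n).step θ' (t - 1) β
      = ⟨fun x => refl β (f x),
          ((⟨f, c⟩ : SwState n).step (ω :: θ') t β).c + refl β (f ω)⟩ := by
  unfold SwState.step
  rw [colC_shift_coeff ω θ' f hf c (c + f ω) t h1 β]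
  congr 1
  show c + f ω - _ • β.vec = c - _ • β.vec + refl β (f ω)
  unfold refl
  rw [sc_dot_comm (f ω) β.vec, sub_smul]
  abel

theorem colC_shift_aux (ω : Vec n) (θ' : Shape n)
    (hω : ∀ (f : Vec n → Vec n) (β : RootD n), IsWf f → ∃ z : ℤ, dot β.vec (f ω) = z)
    (l : List (ℝ × RootD n)) : ∀ (a : ℝ) (f : Vec n → Vec n) (c : Vec n), IsWf f → 1 ≤ a →
      (∀ p ∈ l, 1 ≤ p.1) →
      SwDown (ω :: θ') ⟨f, c⟩ l → SwInDom Ty.D (ω :: θ') a ⟨f, c⟩ l →
      SwIntegral (ω :: θ') ⟨f, c⟩ l →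
      SwDown θ' ⟨f, c + f ω⟩ (l.map (fun p => (p.1 - 1, p.2))) ∧
      SwInDom Ty.D θ' (a - 1) ⟨f, c + f ω⟩ (l.map (fun p => (p.1 - 1, p.2))) ∧
      SwIntegral θ' ⟨f, c + f ω⟩ (l.map (fun p => (p.1 - 1, p.2))) ∧
      (runSw θ' ⟨f, c + f ω⟩ (l.map (fun p => (p.1 - 1, p.2)))).pos θ' θ'.length
        = (runSw (ω :: θ') ⟨f, c⟩ l).pos (ω :: θ') ((ω :: θ').length : ℕ) := by
  induction l with
  | nil =>
    intro a f c hf ha _ _ hD _
    have hlen : (((ω :: θ').length : ℕ) : ℝ) = (θ'.length : ℝ) + 1 := by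
      rw [List.length_cons]; push_cast; ring
    refine ⟨trivial, ?_, trivial, ?_⟩
    · intro t h1 h2
      have := hD (t + 1) (by linarith) (by rw [hlen]; linarith)
      rw [colC_shift_pos ω θ' f hf c (t + 1) (by linarith), add_sub_cancel_right] at this
      exact this
    · show (⟨f, c + f ω⟩ : SwState n).pos θ' θ'.length
        = (⟨f, c⟩ : SwState n).pos (ω :: θ') ((ω :: θ').length : ℕ)
      rw [colC_shift_pos ω θ' f hf c _ (by rw [hlen]; have := Nat.cast_nonneg (α := ℝ) θ'.length; linarith),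
        hlen, add_sub_cancel_right]
  | cons p l ih =>
    intro a f c hf ha ht hd hD hI
    have hp1 : 1 ≤ p.1 := ht p (List.mem_cons_self ..)
    have hf' : IsWf (fun x => refl p.2 (f x)) := colF_wf_refl p.2 f hf
    obtain ⟨i1, i2, i3, i4⟩ := ih p.1 (fun x => refl p.2 (f x))
      ((⟨f, c⟩ : SwState n).step (ω :: θ') p.1 p.2).c hf' hp1
      (fun q hq => ht q (List.mem_cons_of_mem _ hq)) hd.2.2 hD.2 hI.2
    have hstep := colC_shift_step ω θ' f hf c p.1 hp1 p.2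
    rw [List.map_cons]
    refine ⟨⟨hd.1, hd.2.1, ?_⟩, ⟨?_, ?_⟩, ⟨?_, ?_⟩, ?_⟩
    · show SwDown θ' ((⟨f, c + f ω⟩ : SwState n).step θ' (p.1 - 1) p.2) _
      rw [hstep]; exact i1
    · intro t h1 h2
      have h2' : t ≤ p.1 - 1 := h2
      have := hD.1 (t + 1) (by linarith) (by linarith)
      rw [colC_shift_pos ω θ' f hf c (t + 1) (by linarith), add_sub_cancel_right] at this
      exact this
    · show SwInDom Ty.D θ' (p.1 - 1) ((⟨f, c + f ω⟩ : SwState n).step θ' (p.1 - 1) p.2) _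
      rw [hstep]; exact i2
    · obtain ⟨z, hz⟩ := hI.1
      obtain ⟨z', hz'⟩ := hω f p.2 hf
      refine ⟨z + z', ?_⟩
      show (⟨f, c + f ω⟩ : SwState n).coeff θ' (p.1 - 1) p.2 = _
      have := colC_shift_coeff ω θ' f hf c (c + f ω) p.1 hp1 p.2
      push_cast
      rw [← hz, ← hz', this]; ring
    · show SwIntegral θ' ((⟨f, c + f ω⟩ : SwState n).step θ' (p.1 - 1) p.2) _
      rw [hstep]; exact i3
    · show (runSw θ' ((⟨f, c + f ω⟩ : SwState n).step θ' (p.1 - 1) p.2) _).pos θ' θ'.length = _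
      rw [hstep]; exact i4

/-- C1.4 the shift lemma: after time `1` the state `(f, c)` for `ω :: θ'` is the state `(f, c + f ω)` for
`θ'`, one unit of time earlier.  (induction on `l`; `colC_val_tail`; the coefficients differ by
`dot β (f ω) ∈ ℤ`; `(c - m β) + s_β f ω = (c + f ω) - m' β`) -/
theorem colC_shift (ω : Vec n) (θ' : Shape n)
    (hω : ∀ (f : Vec n → Vec n) (β : RootD n), IsWf f → ∃ z : ℤ, dot β.vec (f ω) = z)
    (l : List (ℝ × RootD n)) : ∀ (f : Vec n → Vec n) (c : Vec n), IsWf f →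
      (∀ p ∈ l, 1 ≤ p.1 ∧ p.1 ≤ ((ω :: θ').length : ℝ)) →
      l.Pairwise (fun p q => p.1 ≤ q.1) →
      SwDown (ω :: θ') ⟨f, c⟩ l → SwInDom Ty.D (ω :: θ') 1 ⟨f, c⟩ l →
      SwIntegral (ω :: θ') ⟨f, c⟩ l →
      (∀ p ∈ l.map (fun p => (p.1 - 1, p.2)), 0 ≤ p.1 ∧ p.1 ≤ (θ'.length : ℝ)) ∧
      (l.map (fun p => (p.1 - 1, p.2))).Pairwise (fun p q => p.1 ≤ q.1) ∧
      SwDown θ' ⟨f, c + f ω⟩ (l.map (fun p => (p.1 - 1, p.2))) ∧
      SwInDom Ty.D θ' 0 ⟨f, c + f ω⟩ (l.map (fun p => (p.1 - 1, p.2))) ∧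
      SwIntegral θ' ⟨f, c + f ω⟩ (l.map (fun p => (p.1 - 1, p.2))) ∧
      (runSw θ' ⟨f, c + f ω⟩ (l.map (fun p => (p.1 - 1, p.2)))).pos θ' θ'.length
        = (runSw (ω :: θ') ⟨f, c⟩ l).pos (ω :: θ') ((ω :: θ').length : ℕ) := by
  intro f c hf ht hs hd hD hI
  obtain ⟨i1, i2, i3, i4⟩ := colC_shift_aux ω θ' hω l 1 f c hf le_rfl (fun p hp => (ht p hp).1)
    hd hD hI
  rw [sub_self] at i2
  refine ⟨?_, ?_, i1, i2, i3, i4⟩
  · intro p hp
    obtain ⟨q, hq, rfl⟩ := List.mem_map.1 hp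
    have := ht q hq
    rw [List.length_cons] at this
    push_cast at this
    exact ⟨by show 0 ≤ q.1 - 1; linarith [this.1], by show q.1 - 1 ≤ _; linarith [this.2]⟩
  · rw [List.pairwise_map]
    exact hs.imp (fun {p q} h => by show p.1 - 1 ≤ q.1 - 1; linarith)

/-! ## C2: single steps -/

/-- C2.1 a switch at time `0` changes only the frame. -/
theorem colC_step_zero (θ : Shape n) (f : Vec n → Vec n) (hf : IsWf f) (c : Vec n) (β : RootD n) :
    (⟨f, c⟩ : SwState n).step θ 0 β = ⟨fun x => refl β (f x), c⟩ := by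
  unfold SwState.step
  rw [sc_coeff_zero θ ⟨f, c⟩ hf β, zero_smul, sub_zero]

/-- the coefficient inside the first column -/
theorem colC_step_coeff (ω : Vec n) (θ' : Shape n) (f : Vec n → Vec n) (hf : IsWf f) (c : Vec n)
    (β : RootD n) (t : ℝ) (h0 : 0 ≤ t) (h1 : t ≤ 1) :
    (⟨f, c⟩ : SwState n).coeff (ω :: θ') t β = - (t * dot (f ω) β.vec) := by
  unfold SwState.coeff
  show - dot β.vec (f (Shape.val (ω :: θ') t)) = _
  rw [colC_val_head ω θ' t h0 h1, (colF_wf_lin f hf).2.1, sc_dot_smul_right, sc_dot_comm]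

/-- C2.2 an interior switch preserves the invariant `c = h + (1/2)(f₀ ω - f ω)`. -/
theorem colC_step_inv (ω : Vec n) (θ' : Shape n) (f₀ f : Vec n → Vec n) (hf : IsWf f) (h c : Vec n)
    (β : RootD n) (t : ℝ) (h0 : 0 ≤ t) (h1 : t ≤ 1)
    (hp : dot (f ω) β.vec = 0 ∨ (dot (f ω) β.vec = -2 ∧ t = 1 / 2))
    (hc : c = h + (1 / 2 : ℝ) • (f₀ ω - f ω)) :
    ((⟨f, c⟩ : SwState n).step (ω :: θ') t β).c
      = h + (1 / 2 : ℝ) • (f₀ ω - refl β (f ω)) := by
  show c - (⟨f, c⟩ : SwState n).coeff (ω :: θ') t β • β.vec = _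
  rw [colC_step_coeff ω θ' f hf c β t h0 h1, hc]
  unfold refl
  rcases hp with hp | ⟨hp, rfl⟩
  · rw [hp]; simp
  · rw [hp]
    funext i
    simp only [Pi.add_apply, Pi.sub_apply, Pi.smul_apply, smul_eq_mul]
    ring

/-- C2.3 a switch with pairing `0` changes neither the direction nor the offset. -/
theorem colC_step_flat (ω : Vec n) (θ' : Shape n) (f : Vec n → Vec n) (hf : IsWf f) (c : Vec n)
    (β : RootD n) (t : ℝ) (h0 : 0 ≤ t) (h1 : t ≤ 1) (hp : dot (f ω) β.vec = 0) :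
    refl β (f ω) = f ω ∧ ((⟨f, c⟩ : SwState n).step (ω :: θ') t β).c = c := by
  constructor
  · unfold refl; rw [hp, zero_smul, sub_zero]
  · show c - (⟨f, c⟩ : SwState n).coeff (ω :: θ') t β • β.vec = _
    rw [colC_step_coeff ω θ' f hf c β t h0 h1, hp, mul_zero, neg_zero, zero_smul, sub_zero]

end Claimed.Agent.R282
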