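import Claimed.Agent.R282.Col.ChainLeaves

/-!
# Row 282, Sec. 5, layer (F2): integral decreasing path ⇒ `ColChain` (glue, no sorry of its own)
-/

set_option autoImplicit false

namespace Claimed.Agent.R282

variable {n : ℕ}

/-- the induction hypothesis on the remaining columns -/
def ChainIH (xi : Vec n) (cols : List (Fin n)) : Prop :=
  ∀ (l : List (ℝ × RootD n)) (f : Vec n → Vec n) (h : Vec n), IsWf f →
    (∀ p ∈ l, 0 ≤ p.1 ∧ p.1 ≤ ((cols.map (fundV n)).length : ℝ)) →
    l.Pairwise (fun p q => p.1 ≤ q.1) →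
    SwDown (cols.map (fundV n)) ⟨f, h⟩ l → SwInDom Ty.D (cols.map (fundV n)) 0 ⟨f, h⟩ l →
    SwIntegral (cols.map (fundV n)) ⟨f, h⟩ l →
    (runSw (cols.map (fundV n)) ⟨f, h⟩ l).pos (cols.map (fundV n)) (cols.map (fundV n)).length = xi →
    ColChain xi f h cols

/-- no columns left -/
theorem colC_nil (xi : Vec n) : ChainIH xi [] := by
  intro l
  induction l with
  | nil =>
    intro f h hf _ _ _ _ _ hend
    have : (⟨f, h⟩ : SwState n).pos [] 0 = h := colF_pos_zero ⟨f, h⟩ [] hf
    simp only [List.map_nil, runSw, List.length_nil, Nat.cast_zero] at hend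
    rw [this] at hend
    subst hend
    exact ColChain.nil f
  | cons p l ih =>
    intro f h hf ht hs hd hi hint hend
    have hp := ht p (List.mem_cons_self ..)
    have hp0 : p.1 = 0 := le_antisymm (by simpa using hp.2) hp.1
    have hst : (⟨f, h⟩ : SwState n).step [] p.1 p.2 = ⟨fun x => refl p.2 (f x), h⟩ := by
      rw [hp0]; exact colC_step_zero [] f hf h p.2
    simp only [List.map_nil] at hd hi hint hend ht ⊢
    have hd' := hd.2.2
    have hi' := hi.2
    have hint' := hint.2
    simp only [runSw] at hend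
    rw [hst] at hd' hi' hint' hend
    rw [hp0] at hi'
    refine ColChain.down f _ h [] ⟨p.2, trivial, ?_, hd.2.1, rfl⟩
      (ih _ h (colF_wf_refl p.2 f hf) (fun q hq => ht q (List.mem_cons_of_mem _ hq))
        (List.pairwise_cons.1 hs).2 hd' hi' hint' hend)
    have := hd.1
    unfold RootD.Pos
    rw [show dot p.2.vec (rhoV n) = dot (rhoV n) p.2.vec by unfold dot; simp [mul_comm]]
    exact this

theorem colC_dot_comm (x y : Vec n) : dot x y = dot y x := by
  unfold dot; simp [mul_comm]

/-- the column is finished: all remaining switches have time `≥ 1` -/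
theorem colC_finish (hn : 2 ≤ n) (xi : Vec n) (k : Fin n) (cols : List (Fin n))
    (IH : ChainIH xi cols) (f₀ : Vec n → Vec n) (h : Vec n)
    (l : List (ℝ × RootD n)) (f : Vec n → Vec n) (c : Vec n) (a : ℝ) (hf : IsWf f) (ha1 : a ≤ 1)
    (ht : ∀ p ∈ l, 1 ≤ p.1 ∧ p.1 ≤ (((k :: cols).map (fundV n)).length : ℝ))
    (hs : l.Pairwise (fun p q => p.1 ≤ q.1))
    (hd : SwDown ((k :: cols).map (fundV n)) ⟨f, c⟩ l)
    (hi : SwInDom Ty.D ((k :: cols).map (fundV n)) a ⟨f, c⟩ l)
    (hint : SwIntegral ((k :: cols).map (fundV n)) ⟨f, c⟩ l)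
    (hend : (runSw ((k :: cols).map (fundV n)) ⟨f, c⟩ l).pos ((k :: cols).map (fundV n))
      ((k :: cols).map (fundV n)).length = xi)
    (hc : c = h + (1 / 2 : ℝ) • (f₀ (fundV n k) - f (fundV n k))) :
    Dom (h + (1 / 2 : ℝ) • (f₀ (fundV n k) + f (fundV n k))) ∧
      ColChain xi f (h + (1 / 2 : ℝ) • (f₀ (fundV n k) + f (fundV n k))) cols := by
  have hcf : c + f (fundV n k) = h + (1 / 2 : ℝ) • (f₀ (fundV n k) + f (fundV n k)) := by
    rw [hc]; ext i; simp; ring
  simp only [List.map_cons] at ht hd hi hint hend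
  have hlen : (1 : ℝ) ≤ ((fundV n k :: cols.map (fundV n)).length : ℝ) := by
    simp
  have hpos1 : (⟨f, c⟩ : SwState n).pos (fundV n k :: cols.map (fundV n)) 1 = c + f (fundV n k) := by
    unfold SwState.pos
    rw [colC_val_head _ _ 1 zero_le_one le_rfl, one_smul]
  have hdom1 : Dom ((⟨f, c⟩ : SwState n).pos (fundV n k :: cols.map (fundV n)) 1) := by
    cases l with
    | nil => exact hi 1 ha1 hlen
    | cons p l => exact hi.1 1 ha1 (ht p (List.mem_cons_self ..)).1
  obtain ⟨h1, h2, h3, h4, h5, h6⟩ := colC_shift (fundV n k) (cols.map (fundV n))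
    (fun f β hf => colC_pair_int hn k f hf β) l f c hf ht hs hd
    (colC_inDom_mono _ a 1 _ l ha1 hi) hint
  rw [hpos1, hcf] at hdom1
  refine ⟨hdom1, ?_⟩
  rw [← hcf]
  exact IH _ f _ hf h1 h2 h3 h4 h5 (h6.trans hend)

/-- the interior of a column -/
theorem colC_inner (hn : 2 ≤ n) (xi : Vec n) (k : Fin n) (cols : List (Fin n))
    (IH : ChainIH xi cols) (f₀ : Vec n → Vec n) (h : Vec n) (l : List (ℝ × RootD n)) :
    ∀ (f : Vec n → Vec n) (c : Vec n) (a : ℝ), IsWf f → a ≤ 1 →
    (∀ p ∈ l, a ≤ p.1 ∧ 0 < p.1 ∧ p.1 ≤ (((k :: cols).map (fundV n)).length : ℝ)) →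
    l.Pairwise (fun p q => p.1 ≤ q.1) →
    SwDown ((k :: cols).map (fundV n)) ⟨f, c⟩ l →
    SwInDom Ty.D ((k :: cols).map (fundV n)) a ⟨f, c⟩ l →
    SwIntegral ((k :: cols).map (fundV n)) ⟨f, c⟩ l →
    (runSw ((k :: cols).map (fundV n)) ⟨f, c⟩ l).pos ((k :: cols).map (fundV n))
      ((k :: cols).map (fundV n)).length = xi →
    c = h + (1 / 2 : ℝ) • (f₀ (fundV n k) - f (fundV n k)) →
    Relation.ReflTransGen (DownExt (fundV n k)) f₀ f →
    (IsMinu n k → f (fundV n k) = f₀ (fundV n k) ∧ BGe Ty.D f₀ f) →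
    ∃ g : Vec n → Vec n, Relation.ReflTransGen (DownExt (fundV n k)) f₀ g ∧
      (IsMinu n k → g (fundV n k) = f₀ (fundV n k) ∧ BGe Ty.D f₀ g) ∧
      Dom (h + (1 / 2 : ℝ) • (f₀ (fundV n k) + g (fundV n k))) ∧
      ColChain xi g (h + (1 / 2 : ℝ) • (f₀ (fundV n k) + g (fundV n k))) cols := by
  induction l with
  | nil =>
    intro f c a hf ha1 _ hs hd hi hint hend hc hch hmin
    obtain ⟨h1, h2⟩ := colC_finish hn xi k cols IH f₀ h [] f c a hf ha1 (by simp) hs hd hi hint hend hc
    exact ⟨f, hch, hmin, h1, h2⟩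
  | cons p l ih =>
    intro f c a hf ha1 ht hs hd hi hint hend hc hch hmin
    have hp := ht p (List.mem_cons_self ..)
    have hs' := List.pairwise_cons.1 hs
    by_cases hp1 : 1 ≤ p.1
    · have ht' : ∀ q ∈ p :: l, 1 ≤ q.1 ∧ q.1 ≤ (((k :: cols).map (fundV n)).length : ℝ) := by
        intro q hq
        refine ⟨?_, (ht q hq).2.2⟩
        rcases List.mem_cons.1 hq with rfl | hq
        · exact hp1
        · exact hp1.trans (hs'.1 q hq)
      obtain ⟨h1, h2⟩ := colC_finish hn xi k cols IH f₀ h (p :: l) f c a hf ha1 ht' hs hd hi hint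
        hend hc
      exact ⟨f, hch, hmin, h1, h2⟩
    · have hp1' : p.1 < 1 := not_le.1 hp1
      have hval : Shape.val ((k :: cols).map (fundV n)) p.1 = p.1 • fundV n k := by
        rw [List.map_cons]; exact colC_val_head _ _ _ hp.2.1.le hp1'.le
      have hco : ∃ z : ℤ, - dot p.2.vec (f (p.1 • fundV n k)) = z := by
        have := hint.1
        unfold SwState.coeff at this
        rw [hval] at this
        exact this
      have hcase := colC_interior hn k f hf p.2 hd.2.1 p.1 hp.2.1 hp1' hco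
      have hcase' : dot (f (fundV n k)) p.2.vec = 0 ∨
          (dot (f (fundV n k)) p.2.vec = -2 ∧ p.1 = 1 / 2) := by
        rcases hcase with h0 | ⟨h2, h3, _⟩
        · exact Or.inl h0
        · exact Or.inr ⟨h2, h3⟩
      have hpos : p.2.Pos := by
        unfold RootD.Pos; rw [colC_dot_comm]; exact hd.1
      have hc' := colC_step_inv (fundV n k) (cols.map (fundV n)) f₀ f hf h c p.2 p.1 hp.2.1.le
        hp1'.le hcase' hc
      have hstep : DownExt (fundV n k) f (fun x => refl p.2 (f x)) :=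
        ⟨p.2, hpos, hd.2.1, hcase'.imp id (fun h => h.1), rfl⟩
      refine ih (fun x => refl p.2 (f x)) _ p.1 (colF_wf_refl p.2 f hf) hp1'.le
        (fun q hq => ⟨hs'.1 q hq, (ht q (List.mem_cons_of_mem _ hq)).2⟩) hs'.2 hd.2.2 hi.2 hint.2
        hend hc' (hch.tail hstep) ?_
      intro hm
      rcases hcase with h0 | ⟨_, _, h3⟩
      · have := colC_step_flat (fundV n k) (cols.map (fundV n)) f hf c p.2 p.1 hp.2.1.le hp1'.le h0
        exact ⟨this.1.trans (hmin hm).1, (hmin hm).2.tail ⟨p.2, trivial, hpos, hd.2.1, rfl⟩⟩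
      · exact absurd h3 (colC_not_minu_ext k hm)

/-- the midpoint of the column is dominant -/
theorem colC_mid (hn : 2 ≤ n) (k : Fin n) (cols : List (Fin n)) (f₀ : Vec n → Vec n) (h : Vec n)
    (l : List (ℝ × RootD n)) :
    ∀ (f : Vec n → Vec n) (a : ℝ), IsWf f → a ≤ 1 / 2 →
    (∀ p ∈ l, a ≤ p.1 ∧ 0 < p.1 ∧ p.1 ≤ (((k :: cols).map (fundV n)).length : ℝ)) →
    l.Pairwise (fun p q => p.1 ≤ q.1) →
    SwDown ((k :: cols).map (fundV n)) ⟨f, h⟩ l →
    SwInDom Ty.D ((k :: cols).map (fundV n)) a ⟨f, h⟩ l →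
    SwIntegral ((k :: cols).map (fundV n)) ⟨f, h⟩ l →
    f (fundV n k) = f₀ (fundV n k) →
    Dom (h + (1 / 2 : ℝ) • f₀ (fundV n k)) := by
  have hlen : (1 / 2 : ℝ) ≤ (((k :: cols).map (fundV n)).length : ℝ) := by
    simp only [List.map_cons, List.length_cons, Nat.cast_add, Nat.cast_one]
    have : (0 : ℝ) ≤ ((cols.map (fundV n)).length : ℝ) := Nat.cast_nonneg _
    linarith
  have hposhalf : ∀ f : Vec n → Vec n, IsWf f → f (fundV n k) = f₀ (fundV n k) →
      (⟨f, h⟩ : SwState n).pos ((k :: cols).map (fundV n)) (1 / 2)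
        = h + (1 / 2 : ℝ) • f₀ (fundV n k) := by
    intro f hf hff
    unfold SwState.pos
    rw [List.map_cons, colC_val_head _ _ (1 / 2) (by norm_num) (by norm_num)]
    show h + f ((1 / 2 : ℝ) • fundV n k) = _
    rw [(colF_wf_lin f hf).2.1, hff]
  induction l with
  | nil =>
    intro f a hf ha _ _ _ hi _ hff
    rw [← hposhalf f hf hff]
    exact hi _ ha hlen
  | cons p l ih =>
    intro f a hf ha ht hs hd hi hint hff
    have hp := ht p (List.mem_cons_self ..)
    have hs' := List.pairwise_cons.1 hs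
    by_cases hph : 1 / 2 ≤ p.1
    · rw [← hposhalf f hf hff]
      exact hi.1 _ ha hph
    · have hph' : p.1 < 1 / 2 := not_le.1 hph
      have hp1' : p.1 < 1 := by linarith
      have hval : Shape.val ((k :: cols).map (fundV n)) p.1 = p.1 • fundV n k := by
        rw [List.map_cons]; exact colC_val_head _ _ _ hp.2.1.le hp1'.le
      have hco : ∃ z : ℤ, - dot p.2.vec (f (p.1 • fundV n k)) = z := by
        have := hint.1
        unfold SwState.coeff at this
        rw [hval] at this
        exact this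
      have h0 : dot (f (fundV n k)) p.2.vec = 0 := by
        rcases colC_interior hn k f hf p.2 hd.2.1 p.1 hp.2.1 hp1' hco with h0 | ⟨_, h3, _⟩
        · exact h0
        · exact absurd h3 hph'.ne
      have hfl := colC_step_flat (fundV n k) (cols.map (fundV n)) f hf h p.2 p.1 hp.2.1.le hp1'.le h0
      have hst : (⟨f, h⟩ : SwState n).step ((k :: cols).map (fundV n)) p.1 p.2
          = ⟨fun x => refl p.2 (f x), h⟩ := by
        have h2 := hfl.2
        rw [← List.map_cons] at h2
        calc (⟨f, h⟩ : SwState n).step ((k :: cols).map (fundV n)) p.1 p.2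
            = ⟨fun x => refl p.2 (f x),
                ((⟨f, h⟩ : SwState n).step ((k :: cols).map (fundV n)) p.1 p.2).c⟩ := rfl
          _ = _ := by rw [h2]
      have hd' := hd.2.2
      have hi' := hi.2
      have hint' := hint.2
      rw [hst] at hd' hi' hint'
      exact ih (fun x => refl p.2 (f x)) p.1 (colF_wf_refl p.2 f hf) hph'.le
        (fun q hq => ⟨hs'.1 q hq, (ht q (List.mem_cons_of_mem _ hq)).2⟩) hs'.2 hd' hi' hint'
        (hfl.1.trans hff)

/-- switches at time `0`, then the column -/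
theorem colC_cons (hn : 2 ≤ n) (xi : Vec n) (k : Fin n) (cols : List (Fin n))
    (IH : ChainIH xi cols) : ChainIH xi (k :: cols) := by
  intro l
  induction l with
  | nil =>
    intro f h hf _ hs hd hi hint hend
    obtain ⟨g, h1, h2, h3, h4⟩ := colC_inner hn xi k cols IH f h [] f h 0 hf zero_le_one (by simp)
      hs hd hi hint hend (by simp) Relation.ReflTransGen.refl
      (fun _ => ⟨rfl, Relation.ReflTransGen.refl⟩)
    rcases colC_minu_or_ext k with hm | he
    · have hg := (h2 hm).1
      have e : h + (1 / 2 : ℝ) • (f (fundV n k) + g (fundV n k)) = h + f (fundV n k) := by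
        rw [hg]; ext i; simp; ring
      rw [e] at h3 h4
      exact ColChain.minu f g h k cols hm (h2 hm).2 h3 h4
    · exact ColChain.ext f g h k cols he h1
        (colC_mid hn k cols f h [] f 0 hf (by norm_num) (by simp) hs hd hi hint rfl) h3 h4
  | cons p l ih =>
    intro f h hf ht hs hd hi hint hend
    have hp := ht p (List.mem_cons_self ..)
    have hs' := List.pairwise_cons.1 hs
    by_cases hp0 : p.1 = 0
    · have hst : (⟨f, h⟩ : SwState n).step ((k :: cols).map (fundV n)) p.1 p.2
          = ⟨fun x => refl p.2 (f x), h⟩ := by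
        rw [hp0]; exact colC_step_zero _ f hf h p.2
      have hd' := hd.2.2
      have hi' := hi.2
      have hint' := hint.2
      simp only [runSw] at hend
      rw [hst] at hd' hi' hint' hend
      rw [hp0] at hi'
      refine ColChain.down f _ h _ ⟨p.2, trivial, ?_, hd.2.1, rfl⟩
        (ih _ h (colF_wf_refl p.2 f hf) (fun q hq => ht q (List.mem_cons_of_mem _ hq))
          hs'.2 hd' hi' hint' hend)
      unfold RootD.Pos; rw [colC_dot_comm]; exact hd.1
    · have hp0' : 0 < p.1 := lt_of_le_of_ne hp.1 (Ne.symm hp0)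
      have ht' : ∀ q ∈ p :: l, (0 : ℝ) ≤ q.1 ∧ 0 < q.1 ∧
          q.1 ≤ (((k :: cols).map (fundV n)).length : ℝ) := by
        intro q hq
        refine ⟨(ht q hq).1, ?_, (ht q hq).2⟩
        rcases List.mem_cons.1 hq with rfl | hq
        · exact hp0'
        · exact hp0'.trans_le (hs'.1 q hq)
      obtain ⟨g, h1, h2, h3, h4⟩ := colC_inner hn xi k cols IH f h (p :: l) f h 0 hf zero_le_one ht'
        hs hd hi hint hend (by simp) Relation.ReflTransGen.refl
        (fun _ => ⟨rfl, Relation.ReflTransGen.refl⟩)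
      rcases colC_minu_or_ext k with hm | he
      · have hg := (h2 hm).1
        have e : h + (1 / 2 : ℝ) • (f (fundV n k) + g (fundV n k)) = h + f (fundV n k) := by
          rw [hg]; ext i; simp; ring
        rw [e] at h3 h4
        exact ColChain.minu f g h k cols hm (h2 hm).2 h3 h4
      · exact ColChain.ext f g h k cols he h1
          (colC_mid hn k cols f h (p :: l) f 0 hf (by norm_num) ht' hs hd hi hint rfl) h3 h4

theorem colC_all (hn : 2 ≤ n) (xi : Vec n) (cols : List (Fin n)) : ChainIH xi cols := by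
  induction cols with
  | nil => exact colC_nil xi
  | cons k cols ih => exact colC_cons hn xi k cols ih

/-- (F2): (5.3), minuscule columns are straight, exterior columns turn at the midpoint. -/
theorem col_chain (hn : 2 ≤ n) (lam xi : Vec n) (cols : List (Fin n)) (w0 : WD n)
    (l : List (ℝ × RootD n)) (h : IsDecPath Ty.D lam (cols.map (fundV n)) xi w0 l)
    (hint : SwIntegral (cols.map (fundV n)) ⟨w0.act, lam⟩ l) :
    ColChain xi w0.act lam cols :=
  colC_all hn xi cols l w0.act lam ⟨w0, rfl⟩ h.times_mem h.sorted h.down h.inDom hint h.endpoint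

end Claimed.Agent.R282
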