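import Claimed.Agent.R282.Col.Iface
import Claimed.Agent.R282.S2AB.PL.Fold

/-!
# Row 282, Sec. 5, layer (F1): leaves of the direct folding (Lemma 5.2)

The schedule `y(t) = S.pos θ t` is folded into the closed chamber WITHOUT perturbation.
Invariant `FoldRel θ g S S'`: `S'.pos θ t = g (S.pos θ t)` for all `t`, `g` a Weyl element, in the form
`S'.c = g S.c` and `S'.frame v = g (S.frame v)` for all increments `v` of the shape.

Leaves (each block = one package):
* F1 (`colF_wf_*`, `colF_root_*`, `colF_dom_unique`, `colF_meas_lt`): calculus of Weyl elements.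
* F2 (`colF_val_*`, `colF_exit`): the shape and the first exit from the chamber.
* F3 (`colF_step_pos`, `colF_sort_step`, `colF_switch`, `colF_inDom_*`): the state machine.
-/

set_option autoImplicit false

namespace Claimed.Agent.R282

variable {n : ℕ}

/-- the folding invariant -/
structure FoldRel (θ : Shape n) (g : Vec n → Vec n) (S S' : SwState n) : Prop where
  gW : IsWf g
  sW : IsWf S.frame
  uW : IsWf S'.frame
  c_eq : S'.c = g S.c
  fr_eq : ∀ v ∈ θ, S'.frame v = g (S.frame v)

/-- termination measure: the number of values of the potential `(w ρ)·ρ` above `(f ρ)·ρ`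
(`plDef` of `S2AB/PL/Basic.lean`) -/
noncomputable def colF_meas (f : Vec n → Vec n) : ℕ := plDef f

end Claimed.Agent.R282
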