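import Claimed.Agent.R282.Col.FoldLeaves

/-!
# Row 282, Sec. 5, layer (F1): the folding recursion (glue, no sorry of its own)
-/

set_option autoImplicit false

namespace Claimed.Agent.R282

variable {n : ℕ}

/-- the conclusion of the recursion -/
def FoldOut (θ : Shape n) (a : ℝ) (S S' : SwState n) (l : List (ℝ × RootD n)) : Prop :=
  ∃ (l' : List (ℝ × RootD n)) (g' : Vec n → Vec n),
    (∀ p ∈ l', a ≤ p.1 ∧ p.1 ≤ (θ.length : ℝ)) ∧ l'.Pairwise (fun p q => p.1 ≤ q.1) ∧
    SwDown θ S' l' ∧ SwInDom Ty.D θ a S' l' ∧ SwIntOrWall θ S' l' ∧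
    FoldRel θ g' (runSw θ S l) (runSw θ S' l')

/-- prepend a downstairs switch at time `t ≥ a` -/
theorem colF_out_cons (θ : Shape n) (a t : ℝ) (S₁ S' : SwState n) (l₁ : List (ℝ × RootD n))
    (α : RootD n) (hat : a ≤ t) (htl : t ≤ θ.length)
    (hdom : ∀ s, a ≤ s → s ≤ t → Dom (S'.pos θ s))
    (hpos : 0 < dot (rhoV n) α.vec) (hneg : dot (S'.frame (rhoV n)) α.vec < 0)
    (hlab : (∃ z : ℤ, S'.coeff θ t α = z) ∨ S'.gap θ t α = 0)
    (h : FoldOut θ t S₁ (S'.step θ t α) l₁) :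
    ∃ (l' : List (ℝ × RootD n)) (g' : Vec n → Vec n),
    (∀ p ∈ l', a ≤ p.1 ∧ p.1 ≤ (θ.length : ℝ)) ∧ l'.Pairwise (fun p q => p.1 ≤ q.1) ∧
    SwDown θ S' l' ∧ SwInDom Ty.D θ a S' l' ∧ SwIntOrWall θ S' l' ∧
    FoldRel θ g' (runSw θ S₁ l₁) (runSw θ S' l') := by
  obtain ⟨l', g', ht, hs, hd, hi, hw, hr⟩ := h
  refine ⟨(t, α) :: l', g', ?_, ?_, ?_, ?_, ?_, ?_⟩
  · intro p hp
    rcases List.mem_cons.1 hp with rfl | hp
    · exact ⟨hat, htl⟩
    · exact ⟨hat.trans (ht p hp).1, (ht p hp).2⟩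
  · exact List.pairwise_cons.2 ⟨fun q hq => (ht q hq).1, hs⟩
  · exact ⟨hpos, hneg, hd⟩
  · exact ⟨hdom, hi⟩
  · exact ⟨hlab, hw⟩
  · exact hr

/-- the folding recursion -/
theorem colF_rec (θ : Shape n) (hθ : ∀ v ∈ θ, Dom v) (l : List (ℝ × RootD n)) :
    ∀ (k : ℕ) (a : ℝ) (g : Vec n → Vec n) (S S' : SwState n), colF_meas S'.frame = k →
      FoldRel θ g S S' → a ≤ θ.length → (∀ p ∈ l, a ≤ p.1 ∧ p.1 ≤ (θ.length : ℝ)) →
      l.Pairwise (fun p q => p.1 ≤ q.1) → SwValid θ S l → SwIntegral θ S l →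
      Dom (S'.pos θ a) → FoldOut θ a S S' l := by
  induction l with
  | nil =>
    intro k
    induction k using Nat.strong_induction_on with
    | _ k ihk =>
      intro a g S S' hk hrel hal _ _ _ _ hdom
      rcases colF_exit θ hθ S' hrel.uW a θ.length hal hdom with hall | ⟨t, hat, htb, hst, α, hp, hn', hg⟩
      · exact ⟨[], g, by simp, List.Pairwise.nil, trivial, hall, trivial, hrel⟩
      · have hm := colF_meas_lt S'.frame hrel.uW α hp hn'
        have hrel' := colF_sort_step θ g S S' t α hrel hg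
        have hd' : Dom ((S'.step θ t α).pos θ t) := by
          rw [colF_step_pos]; exact hst t hat le_rfl
        have := ihk _ (hk ▸ hm) t _ S (S'.step θ t α) rfl hrel' htb.le (by simp)
          List.Pairwise.nil trivial trivial hd'
        exact colF_out_cons θ a t S S' [] α hat htb.le hst hp hn' (Or.inr hg) this
  | cons p l₁ ih =>
    intro k
    induction k using Nat.strong_induction_on with
    | _ k ihk =>
      intro a g S S' hk hrel hal htimes hsort hvalid hint hdom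
      have hp1 := htimes p (List.mem_cons_self ..)
      have hsort' := List.pairwise_cons.1 hsort
      rcases colF_exit θ hθ S' hrel.uW a p.1 hp1.1 hdom with hall | ⟨t, hat, htb, hst, α, hp, hn', hg⟩
      · -- the path stays dominant up to the next original switch
        have hx : Dom (S'.pos θ p.1) := hall p.1 hp1.1 le_rfl
        have htimes₁ : ∀ q ∈ l₁, p.1 ≤ q.1 ∧ q.1 ≤ (θ.length : ℝ) := fun q hq =>
          ⟨hsort'.1 q hq, (htimes q (List.mem_cons_of_mem _ hq)).2⟩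
        rcases colF_switch θ hθ g S S' p.1 p.2 hrel hx hvalid.1 hvalid.2.1 with
          ⟨g', hrel'⟩ | ⟨β', hp', hn', hco, hrel'⟩
        · obtain ⟨l', g'', ht, hs, hd, hi, hw, hr⟩ := ih _ p.1 g' (S.step θ p.1 p.2) S' rfl hrel'
            hp1.2 htimes₁ hsort'.2 hvalid.2.2 hint.2 hx
          exact ⟨l', g'', fun q hq => ⟨hp1.1.trans (ht q hq).1, (ht q hq).2⟩, hs, hd,
            colF_inDom_extend θ a p.1 S' l' hall hi, hw, hr⟩
        · have hd' : Dom ((S'.step θ p.1 β').pos θ p.1) := by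
            rw [colF_step_pos]; exact hx
          have := ih _ p.1 g (S.step θ p.1 p.2) (S'.step θ p.1 β') rfl hrel'
            hp1.2 htimes₁ hsort'.2 hvalid.2.2 hint.2 hd'
          exact colF_out_cons θ a p.1 (S.step θ p.1 p.2) S' l₁ β' hp1.1 hp1.2 hall hp' hn'
            (Or.inl (by rw [hco]; exact hint.1)) this
      · -- the path leaves the chamber before the next original switch
        have hm := colF_meas_lt S'.frame hrel.uW α hp hn'
        have hrel' := colF_sort_step θ g S S' t α hrel hg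
        have hd' : Dom ((S'.step θ t α).pos θ t) := by
          rw [colF_step_pos]; exact hst t hat le_rfl
        have htl : t ≤ (θ.length : ℝ) := htb.le.trans hp1.2
        have htimes' : ∀ q ∈ p :: l₁, t ≤ q.1 ∧ q.1 ≤ (θ.length : ℝ) := by
          intro q hq
          refine ⟨?_, (htimes q hq).2⟩
          rcases List.mem_cons.1 hq with rfl | hq
          · exact htb.le
          · exact htb.le.trans (hsort'.1 q hq)
        have := ihk _ (hk ▸ hm) t _ S (S'.step θ t α) rfl hrel' htl htimes' hsort hvalid hint hd'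
        exact colF_out_cons θ a t S S' (p :: l₁) α hat htl hst hp hn' (Or.inr hg) this

/-- (F1a), first half of Lemma 5.2: direct folding of a schedule.  Original switches keep
their coefficient, sorting reflections sit on their wall. -/
theorem col_fold_raw (lam xi : Vec n) (θ : Shape n) (hθ : ∀ v ∈ θ, Dom v) (hl : Dom lam)
    (hx : Dom xi) (w0 : WD n) (l : List (ℝ × RootD n)) (h : IsSchedule lam θ xi w0 l)
    (hint : SwIntegral θ ⟨w0.act, lam⟩ l) :
    ∃ (w0' : WD n) (l' : List (ℝ × RootD n)), IsDecPath Ty.D lam θ xi w0' l' ∧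
      SwIntOrWall θ ⟨w0'.act, lam⟩ l' := by
  have hid : IsWf (fun x : Vec n => x) := by
    obtain ⟨w, hw⟩ := colF_wf_refl_id (n := n)
    exact ⟨w, hw⟩
  have hrel : FoldRel θ (fun x => x) ⟨w0.act, lam⟩ ⟨w0.act, lam⟩ :=
    ⟨hid, ⟨w0, rfl⟩, ⟨w0, rfl⟩, rfl, fun _ _ => rfl⟩
  have h0 : Dom ((⟨w0.act, lam⟩ : SwState n).pos θ 0) := by
    rw [colF_pos_zero _ _ ⟨w0, rfl⟩]; exact hl
  obtain ⟨l', g', ht, hs, hd, hi, hw, hr⟩ := colF_rec θ hθ l _ 0 _ _ _ rfl hrel
    (Nat.cast_nonneg _) h.times_mem h.sorted h.valid hint h0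
  refine ⟨w0, l', ⟨trivial, fun _ _ => trivial, ht, hs, hd, hi, ?_⟩, hw⟩
  obtain ⟨w, hwx⟩ := h.endpoint
  have hfin := colF_inDom_final θ 0 _ l' (Nat.cast_nonneg _) ht hs hi
  have hpos := colF_rel_pos θ g' _ _ hr θ.length
  rw [hwx] at hpos
  obtain ⟨w', hw'⟩ := hr.gW
  exact colF_dom_unique _ xi hfin hx (fun x => g' (w.act x)) (colF_wf_comp g' w.act hr.gW ⟨w, rfl⟩) hpos

end Claimed.Agent.R282
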