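import Claimed.Agent.R282.Col.FoldW

/-! # Row 282, Col, package L-COL-F1b: roots and the chamber, termination measure -/

set_option autoImplicit false

namespace Claimed.Agent.R282

variable {n : ℕ}

/-- F1.6 a root has one sign on the closed chamber.  (`γ = ± e_i ± e_j`, say `i < j`: the sign of the
`e_i` coefficient decides, because `|x j| ≤ x i`) -/
theorem colF_root_sign (γ : RootD n) :
    (0 < dot γ.vec (rhoV n) ∧ ∀ x, Dom x → 0 ≤ dot γ.vec x) ∨
      (dot γ.vec (rhoV n) < 0 ∧ ∀ x, Dom x → dot γ.vec x ≤ 0) := by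
  have hne : dot γ.vec (rhoV n) ≠ 0 := by rw [sc_dot_comm]; exact pl_rho_vec_ne γ
  rcases sc_root_sign γ with h | h
  · exact Or.inl ⟨lt_of_le_of_ne (h _ pl_rho_dom) hne.symm, h⟩
  · exact Or.inr ⟨lt_of_le_of_ne (h _ pl_rho_dom) hne, h⟩

/-- F1.7 if `α · f x < 0` for one dominant `x`, then `f⁻¹ α < 0`.  (F1.4', F1.1, F1.6) -/
theorem colF_down_of (f : Vec n → Vec n) (hf : IsWf f) (α : RootD n) (x : Vec n) (hx : Dom x)
    (h : dot (f x) α.vec < 0) : dot (f (rhoV n)) α.vec < 0 := by
  exact pl_frame_neg_of f hf α x hx h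

/-- F1.8 zero total pairing forces zero pairing with every increment.  (F1.4', F1.1, F1.6; a sum of
terms of one sign) -/
theorem colF_zero_of (f : Vec n → Vec n) (hf : IsWf f) (β : RootD n) (θ : Shape n)
    (hθ : ∀ v ∈ θ, Dom v) (h : dot β.vec (f θ.sum) = 0) : ∀ v ∈ θ, dot β.vec (f v) = 0 := by
  obtain ⟨γ, hγ⟩ := sc_frame_root f hf β
  intro v hv
  rw [hγ]
  exact sc_root_zero_of_sum θ hθ γ (by rw [← hγ]; exact h) v hv

/-- F1.9 the dominant representative of a Weyl orbit is unique.  (e.g.: `|x i|` sorted decreasingly is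
an invariant of the orbit, and so is the parity of the number of negative coordinates if no
coordinate vanishes; or: `dot x ρ'` is maximal exactly at dominant points) -/
theorem colF_dom_unique (x y : Vec n) (hx : Dom x) (hy : Dom y) (g : Vec n → Vec n) (hg : IsWf g)
    (h : x = g y) : x = y := by
  obtain ⟨w, rfl⟩ := hg
  rw [h]
  exact pl_dom_unique w y hy (h ▸ hx)

/-- F1.10 a downward reflection decreases the measure.  (`f ρ` has integral coordinates, so
`(f ρ)·β ≤ -1`, `β·ρ ≥ 1`, and `(s_β f ρ)·ρ = (f ρ)·ρ - ((f ρ)·β)(β·ρ)`; `(f ρ)·ρ ≤ ρ·ρ` by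
Cauchy-Schwarz and F1.1) -/
theorem colF_meas_lt (f : Vec n → Vec n) (hf : IsWf f) (β : RootD n)
    (hpos : 0 < dot (rhoV n) β.vec) (hneg : dot (f (rhoV n)) β.vec < 0) :
    colF_meas (fun x => refl β (f x)) < colF_meas f := by
  exact pl_def_step_lt f hf β hpos hneg

end Claimed.Agent.R282
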