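import Claimed.Agent.R282.Col.FoldV

/-! # Row 282, Col, package L-COL-F3: the state machine of the folding -/

set_option autoImplicit false

namespace Claimed.Agent.R282

variable {n : ℕ}

/-! ## F3: the state machine -/

/-- F3.1 a switch does not move the position at its time. -/
theorem colF_step_pos (S : SwState n) (θ : Shape n) (t : ℝ) (β : RootD n) :
    (S.step θ t β).pos θ t = S.pos θ t := by
  exact sc_pos_step θ S t β

/-- F3.1' the path starts at `S.c`.  (`θ.val 0 = 0` by induction on `θ`, note `θ.val t = 0` for `t ≤ 0`) -/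
theorem colF_pos_zero (S : SwState n) (θ : Shape n) (hf : IsWf S.frame) : S.pos θ 0 = S.c := by
  unfold SwState.pos
  rw [sc_val_zero, (sc_isFrame_linear _ hf).map_zero, add_zero]

/-- F3.2 sorting reflection on its wall: the folded path is reflected, `g` becomes `s_α g`. -/
theorem colF_sort_step (θ : Shape n) (g : Vec n → Vec n) (S S' : SwState n) (t : ℝ) (α : RootD n)
    (h : FoldRel θ g S S') (hgap : S'.gap θ t α = 0) :
    FoldRel θ (fun x => refl α (g x)) S (S'.step θ t α) := by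
  refine ⟨colF_wf_refl α g h.gW, h.sW, colF_wf_refl α S'.frame h.uW, ?_, fun v hv => ?_⟩
  · have h1 := sc_gap_eq θ S' t α
    rw [hgap] at h1
    have h2 : S'.coeff θ t α = dot S'.c α.vec := by linarith
    show S'.c - S'.coeff θ t α • α.vec = refl α (g S.c)
    rw [← h.c_eq, h2]
    rfl
  · show refl α (S'.frame v) = refl α (g (S.frame v))
    rw [h.fr_eq v hv]

/-- F3.3 an original switch.  `G = 0`: nothing happens downstairs, `g` becomes `g s_β`.
`G > 0`, `P = 0`: nothing happens (F1.8).  `G > 0`, `P > 0`: downward reflection in `β' = g β` with the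
same coefficient (`β' > 0` by F1.6 since `x·β' = G > 0`; `u⁻¹β' < 0` by F1.7 since `β'·uμ = -P < 0`). -/
theorem colF_switch (θ : Shape n) (hθ : ∀ v ∈ θ, Dom v) (g : Vec n → Vec n) (S S' : SwState n)
    (t : ℝ) (β : RootD n) (h : FoldRel θ g S S') (hx : Dom (S'.pos θ t))
    (hG : 0 ≤ S.gap θ t β) (hP : 0 ≤ S.total θ β) :
    (∃ g', FoldRel θ g' (S.step θ t β) S') ∨
      ∃ β' : RootD n, 0 < dot (rhoV n) β'.vec ∧ dot (S'.frame (rhoV n)) β'.vec < 0 ∧
        S'.coeff θ t β' = S.coeff θ t β ∧ FoldRel θ g (S.step θ t β) (S'.step θ t β') := by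
  obtain ⟨w, rfl⟩ := h.gW
  have hi : FoldInv θ S S' w := ⟨h.sW, h.uW, h.c_eq, h.fr_eq⟩
  have back : ∀ (g' : WD n) (T T' : SwState n), FoldInv θ T T' g' → FoldRel θ g'.act T T' :=
    fun g' T T' k => ⟨⟨g', rfl⟩, k.frS, k.frS', k.c_eq, k.fr_eq⟩
  rcases hG.eq_or_lt with hG0 | hGpos
  · obtain ⟨g1, h1⟩ := pl_inv_zero_gap θ S S' w hi t β hG0.symm
    exact Or.inl ⟨g1.act, back _ _ _ h1⟩
  · rcases hP.eq_or_lt with hP0 | hPpos
    · exact Or.inl ⟨w.act, back _ _ _ (pl_inv_zero_total θ hθ S S' w hi t β hP0.symm)⟩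
    · obtain ⟨γ, c1, c2, c3, h1⟩ := pl_inv_switch θ hθ S S' w hi t β hGpos hPpos hx
      exact Or.inr ⟨γ, c1, c2, c3, back _ _ _ h1⟩

/-- F3.4 -/
theorem colF_inDom_extend (θ : Shape n) (a b : ℝ) (S' : SwState n) (l' : List (ℝ × RootD n))
    (h1 : ∀ t, a ≤ t → t ≤ b → Dom (S'.pos θ t)) (h2 : SwInDom Ty.D θ b S' l') :
    SwInDom Ty.D θ a S' l' := by
  exact pl_inDom_extend θ a b S' l' h1 h2

/-- F3.5 -/
theorem colF_inDom_final (θ : Shape n) (a : ℝ) (S' : SwState n) (l' : List (ℝ × RootD n))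
    (ha : a ≤ θ.length) (ht : ∀ p ∈ l', a ≤ p.1 ∧ p.1 ≤ (θ.length : ℝ))
    (hs : l'.Pairwise (fun p q => p.1 ≤ q.1)) (h : SwInDom Ty.D θ a S' l') :
    Dom ((runSw θ S' l').pos θ θ.length) := by
  exact pl_inDom_end θ a S' l' ha ht hs h

/-- F3.6 the invariant gives the position. -/
theorem colF_rel_pos (θ : Shape n) (g : Vec n → Vec n) (S S' : SwState n) (h : FoldRel θ g S S')
    (t : ℝ) : S'.pos θ t = g (S.pos θ t) := by
  obtain ⟨w, rfl⟩ := h.gW
  exact FoldInv.pos_eq (⟨h.sW, h.uW, h.c_eq, h.fr_eq⟩ : FoldInv θ S S' w) t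

end Claimed.Agent.R282
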