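import Claimed.Agent.R282.Col.FoldR

/-! # Row 282, Col, package L-COL-F2: the shape, first exit from the chamber -/

set_option autoImplicit false

namespace Claimed.Agent.R282

variable {n : ℕ}

/-! ## F2: the shape, first exit from the chamber -/

/-- F2.1 increments of the shape are dominant.  (induction on `θ`; the chamber is a convex cone) -/
theorem colF_val_diff_dom (θ : Shape n) (hθ : ∀ v ∈ θ, Dom v) (s t : ℝ) (hst : s ≤ t) :
    Dom (θ.val t - θ.val s) := by
  exact pl_val_sub_dom θ hθ s t hst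

/-- F2.2 -/
theorem colF_val_cont (θ : Shape n) : Continuous (fun t => θ.val t) := by
  exact sc_val_continuous θ

/-- F2.3 two additive homogeneous maps which agree on the increments agree on all values. -/
theorem colF_val_ext (θ : Shape n) (F G : Vec n → Vec n)
    (hF : (∀ x y, F (x + y) = F x + F y) ∧ ∀ (r : ℝ) x, F (r • x) = r • F x)
    (hG : (∀ x y, G (x + y) = G x + G y) ∧ ∀ (r : ℝ) x, G (r • x) = r • G x)
    (h : ∀ v ∈ θ, F v = G v) : (∀ t, F (θ.val t) = G (θ.val t)) ∧ F θ.sum = G θ.sum := by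
  have lF : IsLinearMap ℝ F := ⟨hF.1, hF.2⟩
  have lG : IsLinearMap ℝ G := ⟨hG.1, hG.2⟩
  have hm : θ.map F = θ.map G := List.map_congr_left h
  refine ⟨fun t => ?_, ?_⟩
  · rw [← sc_val_map θ F lF, ← sc_val_map θ G lG, hm]
  · rw [← sc_sum_map θ F lF, ← sc_sum_map θ G lG, hm]

/-- F2.4 first exit.  If the path of the state `S'` starts in the chamber at time `a`, then either it
stays there up to time `b`, or there is a time `t < b` up to which it stays, and a positive root `α`
with `α · x(t) = 0` and `u⁻¹ α < 0`.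
(`t = sSup {s ∈ [a,b] | dominant on [a,s]}`; the chamber is closed and `F2.2`; finitely many roots, so
one positive root `α` is negative on points `s_k ↓ t`; then `α·x(t) = 0` and
`α · u (η(s_k) - η(t)) < 0`; conclude by F2.1 and F1.7.  `Dom x ↔ 0 ≤ α·x` for all positive roots.) -/
theorem colF_exit (θ : Shape n) (hθ : ∀ v ∈ θ, Dom v) (S' : SwState n) (hu : IsWf S'.frame)
    (a b : ℝ) (hab : a ≤ b) (ha : Dom (S'.pos θ a)) :
    (∀ t, a ≤ t → t ≤ b → Dom (S'.pos θ t)) ∨
      ∃ t, a ≤ t ∧ t < b ∧ (∀ s, a ≤ s → s ≤ t → Dom (S'.pos θ s)) ∧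
        ∃ α : RootD n, 0 < dot (rhoV n) α.vec ∧ dot (S'.frame (rhoV n)) α.vec < 0 ∧
          S'.gap θ t α = 0 := by
  by_cases hall : ∀ t, a ≤ t → t ≤ b → Dom (S'.pos θ t)
  · exact Or.inl hall
  · obtain ⟨τ, α, h1, h2, h3, h4, h5, h6⟩ := pl_exit θ hθ S' hu a b hab ha hall
    refine Or.inr ⟨τ, h1, lt_of_le_of_ne h2 ?_, h3, α, h4, h5, h6⟩
    rintro rfl
    exact hall h3

end Claimed.Agent.R282
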