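import Claimed.Agent.R282.Col.FoldDefs

/-! # Row 282, Col, package L-COL-F1a: calculus of Weyl elements (signed permutations) -/

set_option autoImplicit false

namespace Claimed.Agent.R282

variable {n : ℕ}

/-! ## F1: Weyl elements -/

/-- F1.1 Weyl elements are linear isometries.  (unfold `WD.act`, `dot`; reindex the sum by `w.σ`) -/
theorem colF_wf_lin (f : Vec n → Vec n) (hf : IsWf f) :
    (∀ x y, f (x + y) = f x + f y) ∧ (∀ (r : ℝ) x, f (r • x) = r • f x) ∧
      ∀ x y, dot (f x) (f y) = dot x y := by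
  refine ⟨(sc_isFrame_linear f hf).map_add, (sc_isFrame_linear f hf).map_smul, ?_⟩
  obtain ⟨w, rfl⟩ := hf
  exact sc_dot_WD_act w

/-- F1.2 `s_β f` is a Weyl element.  (`refl β` is the signed permutation: swap `β.i`, `β.j`, with two
sign changes iff `β.si = β.sj`; multiply the signed permutations) -/
theorem colF_wf_refl (β : RootD n) (f : Vec n → Vec n) (hf : IsWf f) :
    IsWf (fun x => refl β (f x)) := by
  exact sc_isFrame_refl f hf β

/-- F1.3 `g s_β` is a Weyl element. -/
theorem colF_wf_comp_refl (β : RootD n) (g : Vec n → Vec n) (hg : IsWf g) :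
    IsWf (fun x => g (refl β x)) := by
  obtain ⟨w, rfl⟩ := hg
  obtain ⟨s, hs⟩ := sc_WD_refl β
  obtain ⟨k, hk⟩ := sc_WD_mul w s
  exact ⟨k, funext fun x => by rw [hk, hs]⟩

/-- F1.3' the identity and products are Weyl elements. -/
theorem colF_wf_refl_id : ∃ w : WD n, (fun x : Vec n => x) = w.act := by
  obtain ⟨w, hw⟩ := sc_WD_one (n := n)
  exact ⟨w, funext fun x => (hw x).symm⟩

theorem colF_wf_comp (f g : Vec n → Vec n) (hf : IsWf f) (hg : IsWf g) :
    IsWf (fun x => f (g x)) := by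
  exact pl_isFrame_comp f g hf hg

/-- F1.4 Weyl elements permute the roots. -/
theorem colF_wf_root (g : Vec n → Vec n) (hg : IsWf g) (β : RootD n) :
    ∃ β' : RootD n, β'.vec = g β.vec := by
  obtain ⟨w, rfl⟩ := hg
  exact ⟨β.map w.toWB, by rw [sc_map_vec, sc_toWB_act]⟩

/-- F1.4' and so do their inverses. -/
theorem colF_wf_root_inv (g : Vec n → Vec n) (hg : IsWf g) (β : RootD n) :
    ∃ γ : RootD n, g γ.vec = β.vec := by
  obtain ⟨w, rfl⟩ := hg
  obtain ⟨k, _, hk⟩ := sc_WD_inv w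
  exact ⟨β.map k.toWB, by rw [sc_map_vec, sc_toWB_act, hk]⟩

/-- F1.5 `g s_β = s_{gβ} g`.  (from F1.1) -/
theorem colF_refl_conj (g : Vec n → Vec n) (hg : IsWf g) (β β' : RootD n) (h : β'.vec = g β.vec)
    (x : Vec n) : g (refl β x) = refl β' (g x) := by
  obtain ⟨w, rfl⟩ := hg
  have h1 := sc_refl_map w.toWB β x
  rw [sc_toWB_act, sc_toWB_act] at h1
  rw [← h1]
  exact sc_refl_congr _ _ (by rw [sc_map_vec, sc_toWB_act, h]) _

end Claimed.Agent.R282
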