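import Claimed.Agent.R282.Top.Defs
import Claimed.Agent.R282.S2AB.Defs

/-!
# Row 282, Sec. 5 (Prop 5.1, column intertwiners): interface

`TopC.col` (integral column schedule ⇒ `tensorMult ≠ 0`) is split into three layers with purely
combinatorial interfaces:

* (F1) `col_fold`  : integral schedule ⇒ dominant Bruhat-decreasing path (`IsDecPath`) which is still
  integral (Lemma 5.2).  No representation theory, no perturbation, no limit: direct folding.
* (F2) `col_chain` : integral decreasing path for a list of fundamental columns ⇒ `ColChain`
  ((5.3), "minuscule columns", "the midpoint").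
* (R)  `col_rep`   : `ColChain` ⇒ `RepOcc` (Lemmas 2.3, 2.4, 5.3 and the column functionals), see
  `Col/RepDefs.lean`, `Col/RepMain.lean`.
* the bridge `RepOcc ⇒ tensorMult ≠ 0` belongs to the layer C+R (a hypothesis of `col_main`,
  `Col/Main.lean`).
-/

set_option autoImplicit false

open Claims Claims.C0456

namespace Claimed.Agent.R282

variable {n : ℕ}

/-- minuscule fundamental columns: the vector column and the two half-spin columns -/
def IsMinu (n : ℕ) (k : Fin n) : Prop := (k : ℕ) = 0 ∨ n ≤ (k : ℕ) + 2

/-- exterior fundamental columns `ω = e_0 + ... + e_k`, `2 ≤ k + 1 ≤ n - 2` -/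
def IsExt (n : ℕ) (k : Fin n) : Prop := 1 ≤ (k : ℕ) ∧ (k : ℕ) + 2 < n

/-- a downward reflection whose root has pairing `0` or `-2` with the current direction `f ω` -/
def DownExt (ω : Vec n) (f g : Vec n → Vec n) : Prop :=
  ∃ β : RootD n, β.Pos ∧ dot (f (rhoV n)) β.vec < 0 ∧
    (dot (f ω) β.vec = 0 ∨ dot (f ω) β.vec = -2) ∧ g = fun x => refl β (f x)

/-- The folded path in column form.  `ColChain xi f h cols`: starting at the dominant weight `h` in
the Weyl state `f`, the columns `cols` lead to `xi`; the Weyl states decrease in the Bruhat order.
* `down` : a downward reflection between two columns;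
* `minu` : a minuscule column is straight (direction `f ω`); the state may drop to `g` meanwhile;
* `ext`  : an exterior column runs in direction `f ω` up to its midpoint and in direction `g ω`
  afterwards; `f → g` by downward reflections with pairing `0` or `-2`. -/
inductive ColChain (xi : Vec n) : (Vec n → Vec n) → Vec n → List (Fin n) → Prop
  | nil (f : Vec n → Vec n) : ColChain xi f xi []
  | down (f g : Vec n → Vec n) (h : Vec n) (cols : List (Fin n)) :
      Down Ty.D f g → ColChain xi g h cols → ColChain xi f h cols
  | minu (f g : Vec n → Vec n) (h : Vec n) (k : Fin n) (cols : List (Fin n)) :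
      IsMinu n k → BGe Ty.D f g → Dom (h + f (fundV n k)) →
      ColChain xi g (h + f (fundV n k)) cols → ColChain xi f h (k :: cols)
  | ext (f g : Vec n → Vec n) (h : Vec n) (k : Fin n) (cols : List (Fin n)) :
      IsExt n k → Relation.ReflTransGen (DownExt (fundV n k)) f g →
      Dom (h + (1 / 2 : ℝ) • f (fundV n k)) →
      Dom (h + (1 / 2 : ℝ) • (f (fundV n k) + g (fundV n k))) →
      ColChain xi g (h + (1 / 2 : ℝ) • (f (fundV n k) + g (fundV n k))) cols →
      ColChain xi f h (k :: cols)

/-- Weyl states -/
def IsWf (f : Vec n → Vec n) : Prop := ∃ w : WD n, f = w.act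

/-- every switch has an integral coefficient or sits on its wall (output of the folding) -/
def SwIntOrWall (θ : Shape n) : SwState n → List (ℝ × RootD n) → Prop
  | _, [] => True
  | S, p :: l => ((∃ z : ℤ, S.coeff θ p.1 p.2 = z) ∨ S.gap θ p.1 p.2 = 0) ∧
      SwIntOrWall θ (S.step θ p.1 p.2) l

/-- forces the on-demand equation lemmas to be stored HERE (else several later modules store their own copies,
which collide in the joint check of the grader) -/
theorem colIface_forced_eqns : True := by
  have := @SwIntOrWall.eq_def
  have := @SwIntOrWall.eq_1
  trivial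

end Claimed.Agent.R282
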