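import Claimed.Agent.R282.Col.RepMain
import Claimed.Agent.R282.Col.FoldMain
import Claimed.Agent.R282.Col.ChainMain

/-!
# Row 282, Sec. 5: `TopC.col` from the layers (F1), (F2), (R) and the bridge of the layer C+R
-/

set_option autoImplicit false

open Claims Claims.C0456

namespace Claimed.Agent.R282

/-- (F1) Lemma 5.2. -/
theorem col_fold {n : ℕ} (lam xi : Vec n) (θ : Shape n) (hθ : ∀ v ∈ θ, Dom v) (hl : Dom lam)
    (hx : Dom xi) (hw : IsWtD lam) (h : HasIntSchedule lam θ xi) :
    ∃ (w0 : WD n) (l : List (ℝ × RootD n)), IsDecPath Ty.D lam θ xi w0 l ∧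
      SwIntegral θ ⟨w0.act, lam⟩ l := by
  obtain ⟨w0, l, hs, hi⟩ := h
  obtain ⟨w0', l', hd, hw'⟩ := col_fold_raw lam xi θ hθ hl hx w0 l hs hi
  exact ⟨w0', l', hd, col_int_of_wall lam θ hw w0' l' hw'⟩

/-- `TopC.col` from the three layers and the bridge of the layer C+R. -/
theorem col_main
    (bridge : ∀ (n : ℕ) (L M X : Fin n → ℤ), 2 ≤ n → IsDominantWeight2 L → IsDominantWeight2 M →
      IsDominantWeight2 X → RepOcc Ty.D (half L) (half M) (half X) → tensorMult L M X ≠ 0)
    (n : ℕ) (L M X : Fin n → ℤ) (hn : 2 ≤ n) (hL : IsDominantWeight2 L)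
    (hM : IsDominantWeight2 M) (hX : IsDominantWeight2 X) (cols : List (Fin n))
    (hsum : (cols.map (fundV n)).sum = half M)
    (h : HasIntSchedule (half L) (cols.map (fundV n)) (half X)) : tensorMult L M X ≠ 0 := by
  have hθ : ∀ v ∈ cols.map (fundV n), Dom v := by
    intro v hv
    obtain ⟨k, _, rfl⟩ := List.mem_map.1 hv
    exact col_dom_fund hn k
  obtain ⟨w0, l, hd, hi⟩ := col_fold (half L) (half X) _ hθ (col_dom_half L hL) (col_dom_half X hX)
    (col_wt_half L hL) h
  have hc := col_chain hn (half L) (half X) cols w0 l hd hi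
  have hr := col_rep hn (half L) (half X) cols (col_dom_half L hL) (col_wt_half L hL) w0 hc
  rw [hsum] at hr
  exact bridge n L M X hn hL hM hX hr

end Claimed.Agent.R282
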