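import Claimed.Agent.R282.Col.R.Nil
import Claimed.Agent.R282.Col.R.Down
import Claimed.Agent.R282.Col.R.Glue
import Claimed.Agent.R282.Col.R.DatumExtr
import Claimed.Agent.R282.Col.R.Ext
import Claimed.Agent.R282.Col.R.CL

/-!
# Row 282, Sec. 5, layer (R): the proof of `col_rep` from the contracts of `Col/R/*.lean` (glue, no sorry of its own)

NEW ROUTE (helper216, 12:30Z): Lie-algebraic, see `Col/R/Defs.lean`.  Contracts:
* `colR_nil`    : empty list of columns.
* `colR_down`   : monotonicity of the Demazure subspaces, `y_{s_β f} = e_β^m y_f`.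
* `colR_glue`   : Lemma 2.4 (one step, right to left): binomial expansion of `∏ e_γ^(1 + m'_γ) (y ⊗ y')`.
* `colR_extr` : extremal case of Lemma 2.3 (minuscule columns).
* `colR_ext`  : the exterior column, for a NICE pair of states `f`, `(∏_{γ ∈ M} s_γ) f`
                     (functional `Ψ = Ω_δ ∧ Θ_h^r`, value `± ∏ ⟨h, γ⟩`; validated numerically, n ≤ 6).
* `colR_cl`         : combinatorial lemma (CL): between `f ≥ g` (chain of reflections of pairing `0, -2`)
                     there is a nice pair (validated by brute force, n ≤ 5; proof by the lifting property).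
* `colR_rep`    : forget the extra data.
-/

set_option autoImplicit false

namespace Claimed.Agent.R282

variable {n : ℕ}

theorem col_isWf_bge (f g : Vec n → Vec n) (hf : IsWf f) (h : BGe Ty.D f g) : IsWf g := by
  induction h with
  | refl => exact hf
  | tail _ hbc ih => exact col_isWf_down _ _ ih hbc

theorem col_isWf_bgeExt (ω : Vec n) (f g : Vec n → Vec n) (hf : IsWf f)
    (h : Relation.ReflTransGen (DownExt ω) f g) : IsWf g := by
  induction h with
  | refl => exact hf
  | tail _ hbc ih => exact col_isWf_downExt ω _ _ ih hbc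

/-- a chain of downward reflections in front of an occurrence -/
theorem colR_bge (hn : 2 ≤ n) (h μ ξ : Vec n) (f g : Vec n → Vec n) (hf : IsWf f)
    (hfg : BGe Ty.D f g) (hO : DemOcc h μ ξ g) : DemOcc h μ ξ f := by
  revert hf
  induction hfg using Relation.ReflTransGen.head_induction_on with
  | refl => intro _; exact hO
  | @head a c hab _ ih =>
    intro hf
    exact colR_down hn h μ ξ a c hf hab (ih (col_isWf_down _ _ hf hab))

/-- the induction over the columns -/
theorem colR_of_chain (hn : 2 ≤ n) (xi : Vec n) (f : Vec n → Vec n) (h : Vec n)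
    (cols : List (Fin n)) (hc : ColChain xi f h cols) :
    IsWf f → Dom h → IsWtD h → DemOcc h (cols.map (fundV n)).sum xi f := by
  induction hc with
  | nil f => intro hf hd hw; simpa using colR_nil hn xi hd hw f hf
  | down f g h cols hfg _ ih =>
    intro hf hd hw
    exact colR_down hn h _ xi f g hf hfg (ih (col_isWf_down _ _ hf hfg) hd hw)
  | minu f g h k cols _ hfg hd' _ ih =>
    intro hf hd hw
    have hg := col_isWf_bge _ _ hf hfg
    have hw' := col_wt_add_act h (fundV n k) hw (col_wt_fund hn k) f hf
    have h1 := colR_bge hn _ _ xi f g hf hfg (ih hg hd' hw')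
    have := colR_glue hn h (fundV n k) _ _ xi f [] hf
      ⟨fun _ hγ => absurd hγ (List.not_mem_nil), List.Pairwise.nil⟩
      (colR_extr hn h (fundV n k) hd hw (col_dom_fund hn k) (col_wt_fund hn k) f hf hd') h1
    simpa using this
  | ext f g h k cols hk hfg hmid hend _ ih =>
    intro hf hd hw
    have hg := col_isWf_bgeExt _ _ _ hf hfg
    have hw' := col_wt_add_mid hn k hk h hw f g hf hfg
    obtain ⟨f', M, h1, h2, h3, h4, h5, h6⟩ := colR_cl hn k hk f g hf hfg
    have hf' := col_isWf_bge _ _ hf h1
    have e : h + (1 / 2 : ℝ) • (f (fundV n k) + g (fundV n k)) =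
        h + f' (fundV n k) + (M.map RootD.vec).sum := by
      rw [h6, h2]
      funext i
      simp only [Pi.add_apply, Pi.smul_apply, smul_eq_mul]
      ring
    have hgM : IsWf (colRefl M f') := col_isWf_colRefl M f' hf'
    rw [e] at hend hw' ih
    have hO := colR_bge hn _ _ xi _ g hgM h5 (ih hg hend hw')
    have hD := colR_ext hn k hk h hd hw f' hf' M h3 h4 (by rw [h2]; exact hmid) hend
    have := colR_glue hn h (fundV n k) _ _ xi f' M hf' h3 hD hO
    exact colR_bge hn _ _ xi f f' hf h1 (by simpa using this)

/-- layer (R) from its second-level contracts -/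
theorem col_rep (hn : 2 ≤ n) (lam xi : Vec n) (cols : List (Fin n)) (hl : Dom lam)
    (hw : IsWtD lam) (w0 : WD n) (h : ColChain xi w0.act lam cols) :
    RepOcc Ty.D lam (cols.map (fundV n)).sum xi :=
  colR_rep _ _ _ _ (colR_of_chain hn xi w0.act lam cols h ⟨w0, rfl⟩ hl hw)

end Claimed.Agent.R282
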